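import Vale.Agent.P296.Ample.Jet.Defs
import Vale.Agent.P296.Theta.Bezout

/-!
# P296: construction of the frame

`g l` are the coordinates of `x ↦ σ (x - z) ^ 3 * G l (x + z + τ)`; differentiating their
orthogonality to the jets gives duals of the jets, after one Bezout identity.
-/

noncomputable section
namespace Vale.Agent.P296.Ample.Jet
open Model Theta Matrix Filter Topology

variable {τ : ℂ}

/-- Three sections of degree 3 with factor `-1`. -/
def G (τ : ℂ) : Fin 3 → ℂ → ℂ :=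
  ![fun y => sigma τ y ^ 3, fun y => sigma τ (y + 1 / 3) ^ 3, triple τ 0 (1 / 4) (-(1 / 4))]

lemma G_mem (hτ : 0 < τ.im) : ∀ l, G τ l ∈ sections τ 3 (-1) := by
  have h0 : coord 0 = 1 := by simp [coord]
  have h1 : coord (-1 : ℂ) = 1 := coord_eq_one_iff.2 ⟨-1, by simp⟩
  intro l
  fin_cases l
  · simpa [G, h0, Odd.neg_one_pow (show Odd 3 by decide)] using sigma_pow_mem hτ 0 3
  · have h2 : (-coord (-(1 / 3) : ℂ)) ^ 3 = -1 := by
      have : coord (-(1 / 3) : ℂ) ^ 3 = 1 := by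
        rw [← zpow_natCast, ← coord_int_mul]
        convert h1 using 2
        norm_num
      linear_combination -this
    have h3 := sigma_pow_mem hτ (-(1 / 3) : ℂ) 3
    rw [h2] at h3
    simpa [G] using h3
  · simpa [G] using triple_mem hτ (a := 0) (b := 1 / 4) (d := -(1 / 4)) (by simp [h0])

/-- The section with a triple zero at `z`, as a function of `x`. -/
def trip (τ : ℂ) (l : Fin 3) (x z : ℂ) : ℂ :=
  coord z ^ 3 * (sigma τ (x - z) ^ 3 * G τ l (x + z + τ))

lemma trip_mem (hτ : 0 < τ.im) (l : Fin 3) (z : ℂ) :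
    (fun x => trip τ l x z) ∈ sections τ 6 (seriesFactor τ 6) := by
  have h1 := mul_mem_sections (sigma_pow_mem hτ z 3) (translate_mem (G_mem hτ l) (z + τ))
  have e : seriesFactor τ 6 = (-coord z) ^ 3 * (-1 * (coord (z + τ))⁻¹ ^ 3) := by
    have e1 : seriesFactor τ 6 = (coord τ)⁻¹ ^ 3 := by
      rw [seriesFactor, coord, ← Complex.exp_neg, ← Complex.exp_nat_mul]
      congr 1
      push_cast
      ring
    rw [e1, coord_add]
    field_simp [coord_ne_zero z, coord_ne_zero τ]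
  have h2 := Submodule.smul_mem (sections τ 6 (seriesFactor τ 6)) (coord z ^ 3) (e ▸ h1)
  convert h2 using 1
  funext x
  simp [trip, add_assoc]

lemma trip_differentiable (hτ : 0 < τ.im) (l : Fin 3) (x : ℂ) :
    Differentiable ℂ fun z => trip τ l x z := by
  have hs := differentiable_sigma hτ
  have hG := (G_mem hτ l).1
  have hc := differentiable_coord
  unfold trip
  fun_prop

lemma trip_add_one (hτ : 0 < τ.im) (l : Fin 3) (x z : ℂ) :
    trip τ l x (z + 1) = trip τ l x z := by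
  have h1 : coord (z + 1) = coord z := by
    rw [coord_add, (coord_eq_one_iff (z := 1)).2 ⟨1, by simp⟩, mul_one]
  have h2 : sigma τ (x - (z + 1)) = sigma τ (x - z) := by
    rw [← sigma_add_one (x - (z + 1))]; ring_nf
  rw [trip, trip, h1, h2, show x + (z + 1) + τ = x + z + τ + 1 by ring, (G_mem hτ l).2.1]

lemma trip_add_tau (hτ : 0 < τ.im) (l : Fin 3) (x z : ℂ) :
    trip τ l x (z + τ) = m τ z * trip τ l x z := by
  have hz := coord_ne_zero z
  have ht := coord_ne_zero τ
  have hx := coord_ne_zero x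
  have hs : sigma τ (x - (z + τ)) = -coord (x - (z + τ)) * sigma τ (x - z) := by
    have h := sigma_add_tau hτ (x - (z + τ))
    rw [show x - (z + τ) + τ = x - z by ring] at h
    rw [h]
    field_simp [coord_ne_zero (x - (z + τ))]
  have hG : G τ l (x + (z + τ) + τ) = -1 * (coord (x + z + τ))⁻¹ ^ 3 * G τ l (x + z + τ) := by
    rw [show x + (z + τ) + τ = x + z + τ + τ by ring]
    exact (G_mem hτ l).2.2 _
  have em : m τ z = (coord τ)⁻¹ ^ 3 * (coord z)⁻¹ ^ 6 := by
    have e0 : m τ z = mult ((6 : ℕ) : ℤ) (seriesFactor τ 6) z := rfl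
    rw [e0, mult_eq]
    congr 1
    rw [seriesFactor, coord, ← Complex.exp_neg, ← Complex.exp_nat_mul]
    congr 1
    push_cast
    ring
  rw [trip, trip, hs, hG, em]
  simp only [sub_eq_add_neg, coord_add, coord_neg]
  field_simp

/-- Points at which values determine a section of degree 6. -/
theorem exists_evalPoints (hτ : 0 < τ.im) : ∃ (y : Fin 6 → ℂ) (A : Matrix (Fin 6) (Fin 6) ℂ),
    ∀ f ∈ sections τ 6 (seriesFactor τ 6),
      ∀ x, f x = ∑ j, (A *ᵥ fun k => f (y k)) j * th τ j x := by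
  let ev : ℂ → Fin 6 → ℂ := fun x j => th τ j x
  have htop : Submodule.span ℂ (Set.range ev) = ⊤ := by
    by_contra h
    obtain ⟨φ, hφ, hmap⟩ := Submodule.exists_dual_map_eq_bot_of_lt_top (lt_top_iff_ne_top.2 h)
      inferInstance
    refine hφ (LinearMap.ext fun v => ?_)
    have hind := Fintype.linearIndependent_iff.1 (linearIndependent_series (n := 6) hτ (by norm_num))
      (fun j => φ (Pi.single j 1)) (funext fun x => ?_)
    · rw [show v = ∑ j, v j • Pi.single j (1 : ℂ) from pi_eq_sum_univ' v]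
      simp [hind]
    · have h2 : φ (ev x) = 0 :=
        (Submodule.eq_bot_iff _).1 hmap _ ⟨ev x, Submodule.subset_span ⟨x, rfl⟩, rfl⟩
      rw [show ev x = ∑ j, ev x j • Pi.single j (1 : ℂ) from pi_eq_sum_univ' _] at h2
      simp only [map_sum, map_smul, smul_eq_mul] at h2
      simp only [Finset.sum_apply, Pi.smul_apply, smul_eq_mul, Pi.zero_apply]
      rw [← h2]
      exact Finset.sum_congr rfl fun j _ => mul_comm _ _
  obtain ⟨b, hb, hspan, hli⟩ := exists_linearIndependent ℂ (Set.range ev)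
  rw [htop] at hspan
  let B := Module.Basis.mk hli (by rw [Subtype.range_coe, hspan])
  let e := B.indexEquiv (Pi.basisFun ℂ (Fin 6))
  choose y hy using fun k => hb (e.symm k).2
  let M : Matrix (Fin 6) (Fin 6) ℂ := Matrix.of fun k j => th τ j (y k)
  have hM : IsUnit M := Matrix.linearIndependent_rows_iff_isUnit.1 (by
    have h2 := hli.comp e.symm e.symm.injective
    have e2 : M.row = Subtype.val ∘ e.symm := funext fun k => hy k
    rw [e2]
    exact h2)
  refine ⟨y, M⁻¹, fun f hf x => ?_⟩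
  obtain ⟨w, hw⟩ := exists_series_coords hτ (by norm_num) hf
  have hv : (fun k => f (y k)) = M *ᵥ w := funext fun k => by
    simp [hw, M, mulVec, dotProduct, th, Finset.sum_apply, mul_comm]
  rw [hv, mulVec_mulVec, nonsing_inv_mul M ((isUnit_iff_isUnit_det M).1 hM), one_mulVec, hw]
  simp [th, Finset.sum_apply]

lemma hasDerivAt_thd (hτ : 0 < τ.im) (d : ℕ) (z : ℂ) :
    HasDerivAt (thd τ d) (thd τ (d + 1) z) z := by
  rw [hasDerivAt_pi]
  intro i
  have h := ((differentiable_series hτ (n := 6) (by norm_num) ((i : ℕ) : ℤ)).contDiff (n := ⊤)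
    ).differentiable_iteratedDeriv d (by simp) z
  simp only [thd]
  rw [iteratedDeriv_succ]
  exact h.hasDerivAt

lemma dot_hasDerivAt {u v : ℂ → Fin 6 → ℂ} {u' v' : Fin 6 → ℂ} {z : ℂ}
    (hu : HasDerivAt u u' z) (hv : HasDerivAt v v' z) :
    HasDerivAt (fun x => u x ⬝ᵥ v x) (u' ⬝ᵥ v z + u z ⬝ᵥ v') z := by
  simp only [dotProduct, ← Finset.sum_add_distrib]
  exact HasDerivAt.fun_sum fun i _ => (hasDerivAt_pi.1 hu i).mul (hasDerivAt_pi.1 hv i)

lemma exists_g (hτ : 0 < τ.im) : ∃ g : Fin 3 → ℂ → Fin 6 → ℂ, (∀ l, Per (g l)) ∧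
    (∀ z l, g l (z + τ) = m τ z • g l z) ∧
    ∀ z l x, trip τ l x z = ∑ j, g l z j * th τ j x := by
  obtain ⟨y, A, hA⟩ := exists_evalPoints hτ
  refine ⟨fun l z => A *ᵥ fun k => trip τ l (y k) z, fun l => ⟨?_, fun z => ?_⟩, fun z l => ?_,
    fun z l x => hA _ (trip_mem hτ l z) x⟩
  · refine differentiable_pi.2 fun j => ?_
    simp only [mulVec, dotProduct]
    exact Differentiable.fun_sum fun k _ => (trip_differentiable hτ l (y k)).const_mul _
  · simp only [trip_add_one hτ]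
  · simp only [trip_add_tau hτ]
    exact mulVec_smul A (m τ z) fun k => trip τ l (y k) z

variable {g : Fin 3 → ℂ → Fin 6 → ℂ}
  (hg : ∀ z l x, trip τ l x z = ∑ j, g l z j * th τ j x)
include hg

lemma iteratedDeriv_trip (hτ : 0 < τ.im) (z : ℂ) (l : Fin 3) (d : ℕ) (x : ℂ) :
    iteratedDeriv d (fun x => trip τ l x z) x = g l z ⬝ᵥ thd τ d x := by
  rw [show (fun x => trip τ l x z) = fun x => ∑ j, g l z j * th τ j x from funext (hg z l),
    iteratedDeriv_fun_sum (f := fun j x => g l z j * th τ j x) fun j _ =>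
      ((differentiable_series hτ (n := 6) (by norm_num) _).const_mul _).contDiff.contDiffAt]
  exact Finset.sum_congr rfl fun j _ => iteratedDeriv_const_mul_field _ _

lemma g_jets (hτ : 0 < τ.im) (z : ℂ) (l : Fin 3) :
    (∀ d < 3, g l z ⬝ᵥ thd τ d z = 0) ∧
      g l z ⬝ᵥ thd τ 3 z = 6 * deriv (sigma τ) 0 ^ 3 * (coord z ^ 3 * G τ l (2 * z + τ)) := by
  have hs := differentiable_sigma hτ
  have hu : Differentiable ℂ fun x => sigma τ (x - z) := hs.comp (differentiable_id.sub_const z)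
  have hG : Differentiable ℂ fun x => coord z ^ 3 * G τ l (x + z + τ) :=
    ((G_mem hτ l).1.comp ((differentiable_id.add_const z).add_const τ)).const_mul _
  obtain ⟨h1, h2⟩ := iteratedDeriv_pow_mul hu (z := z) (by simp [sigma_zero]) 3 _ hG
  have e : (fun x => sigma τ (x - z) ^ 3 * (coord z ^ 3 * G τ l (x + z + τ))) =
      fun x => trip τ l x z := funext fun x => by simp only [trip]; ring
  rw [e] at h1 h2
  refine ⟨fun d hd => by rw [← iteratedDeriv_trip hg hτ]; exact h1 d hd, ?_⟩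
  rw [← iteratedDeriv_trip hg hτ, h2, deriv_comp_sub_const, sub_self, Nat.factorial]
  norm_num [Nat.factorial]
  left; left
  ring_nf

lemma g_independent (hτ : 0 < τ.im) (z : ℂ) (c : Fin 3 → ℂ) (hc : ∑ l, c l • g l z = 0) :
    c = 0 := by
  have hne : ∀ a : ℂ, a ∉ lattice τ → sigma τ a ≠ 0 :=
    fun a ha h => ha ((sigma_eq_zero_iff hτ).1 h)
  have hH : (fun y => ∑ l, c l * G τ l y) = fun _ => 0 := by
    refine Continuous.ext_on (((countable_lattice τ).image fun a => a + 2 * z + τ).dense_compl ℂ)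
      (continuous_finsetSum _ fun l _ => (G_mem hτ l).1.continuous.const_mul (c l))
      continuous_const fun y hy => ?_
    set x := y - z - τ with hx
    have h1 : ∑ l, c l * trip τ l x z = 0 := by
      simp only [hg, Finset.mul_sum]
      rw [Finset.sum_comm]
      refine Finset.sum_eq_zero fun j _ => ?_
      have := congrFun hc j
      simp only [Finset.sum_apply, Pi.smul_apply, smul_eq_mul, Pi.zero_apply] at this
      simp only [← mul_assoc, ← Finset.sum_mul, this, zero_mul]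
    have h2 : sigma τ (x - z) ≠ 0 := hne _ fun hl => hy ⟨x - z, hl, by rw [hx]; ring⟩
    simp only [trip, show x + z + τ = y by rw [hx]; ring] at h1
    have h3 : coord z ^ 3 * sigma τ (x - z) ^ 3 * ∑ l, c l * G τ l y = 0 := by
      rw [Finset.mul_sum, ← h1]
      exact Finset.sum_congr rfl fun l _ => by ring
    exact (mul_eq_zero.1 h3).resolve_left
      (mul_ne_zero (pow_ne_zero _ (coord_ne_zero z)) (pow_ne_zero _ h2))
  have hreal : ∀ r : ℝ, (∀ k : ℤ, r ≠ k) → (r : ℂ) ∉ lattice τ := fun r hr hl => by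
    obtain ⟨a, b, hab⟩ := mem_lattice.1 hl
    have him := congrArg Complex.im hab
    simp at him
    rcases him with him | him
    · subst him
      simp at hab
      exact hr a (by exact_mod_cast hab)
    · exact hτ.ne' him
  have hfrac : ∀ r : ℝ, 0 < r → r < 1 → (r : ℂ) ∉ lattice τ := fun r h0 h1 => hreal r fun k hk => by
    subst hk
    have a : (0 : ℤ) < k := by exact_mod_cast h0
    have b : k < (1 : ℤ) := by exact_mod_cast h1
    omega
  have hs : ∀ r : ℝ, 0 < |r| → |r| < 1 → sigma τ (r : ℂ) ≠ 0 := fun r h0 h1 => hne _ fun hl => by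
    rcases abs_cases r with ⟨e, -⟩ | ⟨e, -⟩
    · exact hfrac r (e ▸ h0) (e ▸ h1) hl
    · exact hfrac (-r) (e ▸ h0) (e ▸ h1) (by push_cast; exact neg_mem hl)
  have e0 := congrFun hH 0
  have e1 := congrFun hH (1 / 4)
  have e2 := congrFun hH (1 / 8)
  simp [Fin.sum_univ_three, G, triple, sigma_zero] at e0 e1 e2
  have hc1 : c 1 = 0 := e0.resolve_right (by
    have := hs (1 / 3) (by norm_num) (by norm_num); push_cast at this; simpa using this)
  rw [hc1] at e1 e2
  have hc0 : c 0 = 0 := by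
    simp at e1
    exact e1.resolve_right (by
      have := hs (1 / 4) (by norm_num) (by norm_num); push_cast at this; simpa using this)
  rw [hc0] at e2
  simp only [zero_mul, add_zero, zero_add, mul_eq_zero] at e2
  have s1 := hs (1 / 8) (by norm_num) (by norm_num)
  have s2 := hs (-(1 / 8)) (by norm_num) (by norm_num)
  have s3 := hs (3 / 8) (by norm_num) (by norm_num)
  push_cast at s1 s2 s3
  norm_num at s1 s2 s3 e2
  funext l
  fin_cases l <;> simp_all

omit hg

lemma derivs_dot (hτ : 0 < τ.im) (g : ℂ → Fin 6 → ℂ) (hd : Differentiable ℂ g)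
    (h : ∀ z, ∀ d < 3, g z ⬝ᵥ thd τ d z = 0) (z : ℂ) :
    let g1 := deriv g
    let g2 := deriv g1
    let g3 := deriv g2
    let e := g z ⬝ᵥ thd τ 3 z
    g1 z ⬝ᵥ thd τ 0 z = 0 ∧ g1 z ⬝ᵥ thd τ 1 z = 0 ∧ g1 z ⬝ᵥ thd τ 2 z = -e ∧
      g2 z ⬝ᵥ thd τ 0 z = 0 ∧ g2 z ⬝ᵥ thd τ 1 z = e ∧ g3 z ⬝ᵥ thd τ 0 z = -e := by
  intro g1 g2 g3 e
  have hd1 : Differentiable ℂ g1 := hd.deriv
  have hd2 : Differentiable ℂ g2 := hd1.deriv
  have step : ∀ (u : ℂ → Fin 6 → ℂ), Differentiable ℂ u → ∀ (d : ℕ) (r : ℂ → ℂ) (r' x : ℂ),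
      (∀ w, u w ⬝ᵥ thd τ d w = r w) → HasDerivAt r r' x →
      deriv u x ⬝ᵥ thd τ d x + u x ⬝ᵥ thd τ (d + 1) x = r' := fun u hu d r r' x hr hr' =>
    ((dot_hasDerivAt (hu x).hasDerivAt (hasDerivAt_thd hτ d x)).congr_of_eventuallyEq
      (Eventually.of_forall fun w => (hr w).symm)).unique hr'
  have hzero : ∀ x : ℂ, HasDerivAt (fun _ : ℂ => (0 : ℂ)) 0 x := fun x => hasDerivAt_const _ _
  have a10 : ∀ x, g1 x ⬝ᵥ thd τ 0 x = 0 := fun x => by
    have := step g hd 0 _ 0 x (fun w => h w 0 (by norm_num)) (hzero x)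
    rwa [h x 1 (by norm_num), add_zero] at this
  have a11 : ∀ x, g1 x ⬝ᵥ thd τ 1 x = 0 := fun x => by
    have := step g hd 1 _ 0 x (fun w => h w 1 (by norm_num)) (hzero x)
    rwa [h x 2 (by norm_num), add_zero] at this
  have a12 : g1 z ⬝ᵥ thd τ 2 z = -e :=
    eq_neg_of_add_eq_zero_left (step g hd 2 _ 0 z (fun w => h w 2 (by norm_num)) (hzero z))
  have a20 : ∀ x, g2 x ⬝ᵥ thd τ 0 x = 0 := fun x => by
    have := step g1 hd1 0 _ 0 x a10 (hzero x)
    rwa [a11 x, add_zero] at this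
  have a21 : g2 z ⬝ᵥ thd τ 1 z = e := by
    have := step g1 hd1 1 _ 0 z a11 (hzero z)
    linear_combination this - a12
  have a30 : g3 z ⬝ᵥ thd τ 0 z = -e := by
    have := step g2 hd2 0 _ 0 z a20 (hzero z)
    linear_combination this - a21
  exact ⟨a10 z, a11 z, a12, a20 z, a21, a30⟩

lemma per_deriv {g : ℂ → Fin 6 → ℂ} (h : Per g) : Per (deriv g) :=
  ⟨h.1.deriv, fun z => by rw [← deriv_comp_add_const g 1 z]; exact congrArg (fun u => deriv u z) (funext h.2)⟩

/-- The frame, given one Bezout identity. -/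
theorem exists_jetFrame_of_bezout (hτ : 0 < τ.im) {a b : ℂ → ℂ} (ha : Per a) (hb : Per b)
    (hab : ∀ z, a z * sigma τ z ^ 3 + b z * sigma τ (z + 1 / 3) ^ 3 = 1) :
    Nonempty (JetFrame τ) := by
  obtain ⟨g, hgp, hgt, hg⟩ := exists_g hτ
  set s := 6 * deriv (sigma τ) 0 ^ 3 with hs
  have hs0 : s ≠ 0 := mul_ne_zero (by norm_num) (pow_ne_zero _ (deriv_sigma_zero_ne hτ))
  let γ : Fin 3 → ℂ → ℂ :=
    fun l z => (coord z)⁻¹ ^ 3 / s * (![a (2 * z + τ), b (2 * z + τ), 0] l)
  have hc1 : ∀ z : ℂ, coord (z + 1) = coord z := fun z => by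
    rw [coord_add, (coord_eq_one_iff (z := 1)).2 ⟨1, by simp⟩, mul_one]
  have h2 : ∀ {a : ℂ → ℂ}, Per a → Per fun z => a (2 * z + τ) := fun {a} ha =>
    ⟨ha.1.comp ((differentiable_id.const_mul 2).add_const τ), fun z => by
      show a (2 * (z + 1) + τ) = a (2 * z + τ)
      rw [show 2 * (z + 1) + τ = 2 * z + τ + 1 + 1 by ring, ha.2, ha.2]⟩
  have hγ : ∀ l, Per (γ l) := by
    intro l
    have hc : Per fun z => (coord z)⁻¹ ^ 3 / s :=
      ⟨((differentiable_coord.inv coord_ne_zero).pow 3).div_const _, fun z => by simp only [hc1]⟩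
    fin_cases l
    · exact Per.smul hc (h2 ha)
    · exact Per.smul hc (h2 hb)
    · exact Per.smul hc Per.zero
  have hγ1 : ∀ z, ∑ l, γ l z * (g l z ⬝ᵥ thd τ 3 z) = 1 := fun z => by
    simp only [(g_jets hg hτ z _).2, ← hs, Fin.sum_univ_three, γ, G]
    simp only [Fin.isValue, cons_val_zero, cons_val_one, cons_val_two, vecTail, vecHead,
      Function.comp_apply, cons_val_succ, inv_pow]
    have hz := coord_ne_zero z
    have h13 : (((2 * z + τ) * 3 + 1) / 3 : ℂ) = 2 * z + τ + 1 / 3 := by ring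
    field_simp
    rw [h13]
    linear_combination hab (2 * z + τ)
  let comb : (Fin 3 → ℂ → Fin 6 → ℂ) → ℂ → Fin 6 → ℂ := fun u z => ∑ l, γ l z • u l z
  have hcomb : ∀ u, (∀ l, Per (u l)) → Per (comb u) := fun u hu =>
    ⟨Differentiable.fun_sum fun l _ => (hγ l).1.smul (hu l).1,
      fun z => Finset.sum_congr rfl fun l _ => by simp only [(hγ l).2, (hu l).2]⟩
  have hdot : ∀ u z d, comb u z ⬝ᵥ thd τ d z = ∑ l, γ l z * (u l z ⬝ᵥ thd τ d z) := fun u z d => by
    simp [comb, sum_dotProduct, smul_dotProduct]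
  let v1 := fun l => deriv (g l)
  let v2 := fun l => deriv (v1 l)
  let v3 := fun l => deriv (v2 l)
  have hv1 : ∀ l, Per (v1 l) := fun l => per_deriv (hgp l)
  have hv2 : ∀ l, Per (v2 l) := fun l => per_deriv (hv1 l)
  have hv3 : ∀ l, Per (v3 l) := fun l => per_deriv (hv2 l)
  have hA := fun l z => derivs_dot hτ (g l) (hgp l).1 (fun w => (g_jets hg hτ w l).1) z
  let Q0 := fun z => -comb v1 z
  let Q1 := comb v2
  let Q2 := fun z => -comb v3 z
  have hQ0 : Per Q0 := ⟨(hcomb v1 hv1).1.neg, fun z => by simp only [Q0, (hcomb v1 hv1).2]⟩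
  have hQ1 : Per Q1 := hcomb v2 hv2
  have hQ2 : Per Q2 := ⟨(hcomb v3 hv3).1.neg, fun z => by simp only [Q2, (hcomb v3 hv3).2]⟩
  have hQdual : ∀ z, (Q0 z ⬝ᵥ thd τ 0 z = 0 ∧ Q0 z ⬝ᵥ thd τ 1 z = 0 ∧ Q0 z ⬝ᵥ thd τ 2 z = 1) ∧
      (Q1 z ⬝ᵥ thd τ 0 z = 0 ∧ Q1 z ⬝ᵥ thd τ 1 z = 1) ∧ Q2 z ⬝ᵥ thd τ 0 z = 1 := fun z => by
    refine ⟨⟨?_, ?_, ?_⟩, ⟨?_, ?_⟩, ?_⟩ <;>
      simp only [Q0, Q1, Q2, neg_dotProduct, hdot, v1, v2, v3, (hA _ z).1, (hA _ z).2.1,
        (hA _ z).2.2.1, (hA _ z).2.2.2.1, (hA _ z).2.2.2.2.1, (hA _ z).2.2.2.2.2,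
        mul_neg, Finset.sum_neg_distrib, hγ1, mul_zero, Finset.sum_const_zero, neg_neg, neg_zero]
  have perdot : ∀ {u : ℂ → Fin 6 → ℂ}, Per u → ∀ d, Per fun z => u z ⬝ᵥ thd τ d z := fun {u} hu d =>
    ⟨fun z => (dot_hasDerivAt (hu.1 z).hasDerivAt (hasDerivAt_thd hτ d z)).differentiableAt,
      fun z => by
        have hp : ∀ i, th τ i ∘ (fun x => x + 1) = th τ i := fun i =>
          funext fun x => series_add_one _ x
        have : thd τ d (z + 1) = thd τ d z := funext fun i => by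
          simp only [thd]
          have h' := congrFun (iteratedDeriv_comp_add_const d (th τ i) 1) z
          rw [← h']
          exact congrArg (fun f => iteratedDeriv d f z) (hp i)
        simp only [hu.2, this]⟩
  let P1 := fun z => Q1 z - (Q1 z ⬝ᵥ thd τ 2 z) • Q0 z
  have hP1 : Per P1 := Per.sub hQ1 (Per.smul (perdot hQ1 2) hQ0)
  let P2 := fun z => Q2 z - (Q2 z ⬝ᵥ thd τ 1 z) • P1 z - (Q2 z ⬝ᵥ thd τ 2 z) • Q0 z
  have hP2 : Per P2 :=
    Per.sub (Per.sub hQ2 (Per.smul (perdot hQ2 1) hP1)) (Per.smul (perdot hQ2 2) hQ0)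
  let P : Fin 3 → ℂ → Fin 6 → ℂ := ![Q0, P1, P2]
  have hP : ∀ n, Per (P n) := fun n => by fin_cases n <;> assumption
  have hdual : ∀ z (n k : Fin 3), P n z ⬝ᵥ thd τ (2 - (k : ℕ)) z = if n = k then 1 else 0 := by
    intro z n k
    obtain ⟨⟨a0, a1, a2⟩, ⟨b0, b1⟩, c0⟩ := hQdual z
    fin_cases n <;> fin_cases k <;>
      simp [P, P1, P2, sub_dotProduct, smul_dotProduct, a0, a1, a2, b0, b1, c0]
  -- the square matrix of the whole frame
  let N : ℂ → Matrix (Fin 6) (Fin 6) ℂ :=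
    fun z => Matrix.of fun i j => (Fin.append (fun n => P n z) (fun l => g l z) j) i
  have hN : ∀ z c, N z *ᵥ c = (∑ n : Fin 3, c (Fin.castAdd 3 n) • P n z) +
      ∑ l : Fin 3, c (Fin.natAdd 3 l) • g l z := fun z c => by
    funext i
    simp only [mulVec, dotProduct, N, of_apply, Pi.add_apply, Finset.sum_apply, Pi.smul_apply,
      smul_eq_mul]
    rw [Fin.sum_univ_add (a := 3) (b := 3)]
    simp only [Fin.append_left, Fin.append_right]
    congr 1 <;> exact Finset.sum_congr rfl fun _ _ => mul_comm _ _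
  have hkill : ∀ (z : ℂ) (c : Fin 6 → ℂ) (n : Fin 3), (N z *ᵥ c) ⬝ᵥ thd τ (2 - (n : ℕ)) z = c (Fin.castAdd 3 n) := fun z c (n : Fin 3) => by
    rw [hN, add_dotProduct, sum_dotProduct, sum_dotProduct]
    simp [smul_dotProduct, hdual, (g_jets hg hτ z _).1 (2 - (n : ℕ)) (by omega)]
  have hinj : ∀ z, IsUnit (N z).det := fun z => by
    rw [← isUnit_iff_isUnit_det, ← mulVec_injective_iff_isUnit]
    intro c c' hcc
    have h0 : N z *ᵥ (c - c') = 0 := by rw [mulVec_sub, hcc, sub_self]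
    have hh : ∀ n : Fin 3, (c - c') (Fin.castAdd 3 n) = 0 := fun n => by
      rw [← hkill z (c - c') n, h0, zero_dotProduct]
    rw [hN] at h0
    simp only [hh, zero_smul, Finset.sum_const_zero, zero_add] at h0
    have h1 := g_independent hg hτ z _ h0
    refine sub_eq_zero.1 (funext fun i => ?_)
    exact Fin.addCases (m := 3) (n := 3) hh (fun l => congrFun h1 l) i
  have hNper : ∀ i j, Per fun z => N z i j := fun i j => by
    refine Fin.addCases (m := 3) (n := 3) (fun n => ?_) (fun l => ?_) j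
    · simp only [N, of_apply, Fin.append_left]
      exact ⟨differentiable_pi.1 (hP n).1 i, fun z => congrFun ((hP n).2 z) i⟩
    · simp only [N, of_apply, Fin.append_right]
      exact ⟨differentiable_pi.1 (hgp l).1 i, fun z => congrFun ((hgp l).2 z) i⟩
  have hN1 : ∀ z, N (z + 1) = N z := fun z => Matrix.ext fun i j => (hNper i j).2 z
  have hdet : ∀ M : ℂ → Matrix (Fin 6) (Fin 6) ℂ, (∀ i j, Differentiable ℂ fun z => M z i j) →
      Differentiable ℂ fun z => (M z).det := fun M hM => by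
    simp only [det_apply']
    exact Differentiable.fun_sum fun σ _ =>
      (Differentiable.fun_finsetProd fun i _ => hM _ _).const_mul _
  refine ⟨⟨P, g, fun l z => (N z)⁻¹ (Fin.natAdd 3 l), hP, hgp, fun l => ⟨?_, fun z => by simp only [hN1]⟩,
    hdual, fun z l => (g_jets hg hτ z l).1, fun z l => hgt z l, fun z X hX => ?_⟩⟩
  · refine differentiable_pi.2 fun i => ?_
    simp only [inv_def, Ring.inverse_eq_inv', Matrix.smul_apply, smul_eq_mul]
    refine Differentiable.mul ((hdet N fun i j => (hNper i j).1).inv fun z => (hinj z).ne_zero) ?_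
    simp only [adjugate_apply]
    refine hdet _ fun r s => ?_
    simp only [updateRow_apply]
    split_ifs
    · exact differentiable_const _
    · exact (hNper r s).1
  · have hX' : X = N z *ᵥ ((N z)⁻¹ *ᵥ X) := by
      rw [mulVec_mulVec, mul_nonsing_inv _ (hinj z), one_mulVec]
    set c := (N z)⁻¹ *ᵥ X with hc
    have h0 : ∀ n : Fin 3, c (Fin.castAdd 3 n) = 0 := fun n => by
      rw [← hkill z c n, ← hX']; exact hX _ (by omega)
    conv_lhs => rw [hX', hN]
    simp only [h0, zero_smul, Finset.sum_const_zero, zero_add]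
    rfl

/-- The frame exists for every period. -/
theorem exists_jetFrame (hτ : 0 < τ.im) : Nonempty (JetFrame τ) := by
  obtain ⟨a, b, ha, hb, hab⟩ := exists_bezout hτ
  exact exists_jetFrame_of_bezout hτ ha hb hab

end Vale.Agent.P296.Ample.Jet
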