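import Vale.Agent.P296.Model.Data
import Vale.Agent.P296.Theta.DiffSystem
import Vale.Agent.P296.Theta.Jets

/-!
# P296: frames of the kernel of the 2-jets and the dual of the jets (interface)
-/

noncomputable section
namespace Vale.Agent.P296.Ample
open Model Theta Matrix

/-- Periodic entire data splitting `ℂ⁶` along the 2-jet of the theta vector: `P n` is dual to the
jets `D n = θ^(2-n)`, the `g l` span their annihilator and transform by the multiplier `m`, and
`h l` are coordinates for them. -/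
structure JetFrame (τ : ℂ) where
  P : Fin 3 → ℂ → Fin 6 → ℂ
  g : Fin 3 → ℂ → Fin 6 → ℂ
  h : Fin 3 → ℂ → Fin 6 → ℂ
  perP : ∀ n, Per (P n)
  perg : ∀ l, Per (g l)
  perh : ∀ l, Per (h l)
  dual : ∀ z (n k : Fin 3), P n z ⬝ᵥ thd τ (2 - (k : ℕ)) z = if n = k then 1 else 0
  orth : ∀ z l, ∀ d < 3, g l z ⬝ᵥ thd τ d z = 0
  gtau : ∀ z l, g l (z + τ) = m τ z • g l z
  span : ∀ z (X : Fin 6 → ℂ), (∀ d < 3, X ⬝ᵥ thd τ d z = 0) →
    X = ∑ l, (h l z ⬝ᵥ X) • g l z

end Vale.Agent.P296.Ample
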