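import Vale.Agent.P296.Ample.UpSection
import Vale.Agent.P296.Model.Lemmas
import Vale.Agent.P296.Theta.DiffSystem

/-!
# P296: quadrics upstairs, regular quadrics, and the span lemma

`Quad G` says that `G` is a quadratic form on the fibres with entire coefficients, periodic in `z`.
`Regular G` has a partner in the chart at infinity. A regular quadric, or one that merely tends to a
limit at infinity, without `φφ` part is `a * (X ⬝ᵥ φ)` with `X` orthogonal to the jets.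
-/

noncomputable section
namespace Vale.Agent.P296.Ample.Jet
open Model Theta Matrix Filter Topology

variable {τ : ℂ}

/-- Coordinates of `V`. -/
def co (x : V) : Fin 6 ⊕ Unit → ℂ := Sum.elim x.1 fun _ => x.2

/-- An entire function of `(z, u)` of period one in `z`. -/
def Coef (c : ℂ → ℂ → ℂ) : Prop :=
  Differentiable ℂ (fun p : ℂ × ℂ => c p.1 p.2) ∧ ∀ z u, c (z + 1) u = c z u

/-- A quadratic form on the fibres with such coefficients. -/
def Quad (G : ℂ → ℂ → V → ℂ) : Prop :=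
  ∃ B : (Fin 6 ⊕ Unit) → (Fin 6 ⊕ Unit) → ℂ → ℂ → ℂ, (∀ i j, Coef (B i j)) ∧
    ∀ z u x, G z u x = ∑ i, ∑ j, B i j z u * co x i * co x j

/-- A linear form on the fibres with such coefficients. -/
def Lin (L : ℂ → ℂ → V → ℂ) : Prop :=
  ∃ B : (Fin 6 ⊕ Unit) → ℂ → ℂ → ℂ, (∀ i, Coef (B i)) ∧
    ∀ z u x, L z u x = ∑ i, B i z u * co x i

lemma Coef.const (c : ℂ) : Coef fun _ _ => c := ⟨differentiable_const _, fun _ _ => rfl⟩

lemma Coef.of_per {c : ℂ → ℂ} (h : Per c) : Coef fun z _ => c z :=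
  ⟨h.1.comp differentiable_fst, fun z _ => h.2 z⟩

lemma Coef.pow (k : ℕ) : Coef fun _ u => u ^ k := ⟨differentiable_snd.pow k, fun _ _ => rfl⟩

lemma Coef.mul {c d : ℂ → ℂ → ℂ} (hc : Coef c) (hd : Coef d) : Coef fun z u => c z u * d z u :=
  ⟨hc.1.mul hd.1, fun z u => by simp only [hc.2, hd.2]⟩

lemma Coef.add {c d : ℂ → ℂ → ℂ} (hc : Coef c) (hd : Coef d) : Coef fun z u => c z u + d z u :=
  ⟨hc.1.add hd.1, fun z u => by simp only [hc.2, hd.2]⟩

lemma Quad.zero : Quad fun _ _ _ => 0 :=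
  ⟨fun _ _ _ _ => 0, fun _ _ => Coef.const 0, fun _ _ _ => by simp⟩

lemma Quad.add {G H : ℂ → ℂ → V → ℂ} (hG : Quad G) (hH : Quad H) :
    Quad fun z u x => G z u x + H z u x := by
  obtain ⟨B, hB, eB⟩ := hG
  obtain ⟨C, hC, eC⟩ := hH
  exact ⟨fun i j z u => B i j z u + C i j z u, fun i j => (hB i j).add (hC i j), fun z u x => by
    simp only [eB, eC, add_mul, Finset.sum_add_distrib]⟩

lemma Quad.smul {G : ℂ → ℂ → V → ℂ} {c : ℂ → ℂ → ℂ} (hc : Coef c) (hG : Quad G) :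
    Quad fun z u x => c z u * G z u x := by
  obtain ⟨B, hB, eB⟩ := hG
  exact ⟨fun i j z u => c z u * B i j z u, fun i j => hc.mul (hB i j), fun z u x => by
    simp only [eB, Finset.mul_sum, mul_assoc]⟩

lemma Quad.sum {α : Type*} (s : Finset α) {G : α → ℂ → ℂ → V → ℂ} (h : ∀ k ∈ s, Quad (G k)) :
    Quad fun z u x => ∑ k ∈ s, G k z u x := by
  classical
  induction s using Finset.induction_on with
  | empty => simpa using Quad.zero
  | insert k s hk ih =>
    simp only [Finset.sum_insert hk]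
    exact (h k (Finset.mem_insert_self k s)).add (ih fun l hl => h l (Finset.mem_insert_of_mem hl))

lemma Lin.mul {L L' : ℂ → ℂ → V → ℂ} (hL : Lin L) (hL' : Lin L') :
    Quad fun z u x => L z u x * L' z u x := by
  obtain ⟨B, hB, eB⟩ := hL
  obtain ⟨C, hC, eC⟩ := hL'
  exact ⟨fun i j z u => B i z u * C j z u, fun i j => (hB i).mul (hC j), fun z u x => by
    simp only [eB, eC, Finset.sum_mul_sum]
    exact Finset.sum_congr rfl fun i _ => Finset.sum_congr rfl fun j _ => by ring⟩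

lemma Lin.snd : Lin fun _ _ x => x.2 :=
  ⟨fun i _ _ => Sum.elim (fun _ => 0) (fun _ => 1) i, fun _ => Coef.const _, fun _ _ x => by
    simp [co, Fintype.sum_sum_type]⟩

lemma Lin.dot {c : ℂ → Fin 6 → ℂ} (hc : ∀ i, Per fun z => c z i) :
    Lin fun z _ x => c z ⬝ᵥ x.1 :=
  ⟨fun i z _ => Sum.elim (c z) (fun _ => 0) i, fun i => by
    rcases i with i | i
    · exact Coef.of_per (hc i)
    · exact Coef.const 0, fun z _ x => by simp [co, dotProduct, Fintype.sum_sum_type]⟩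

lemma Quad.hom {G : ℂ → ℂ → V → ℂ} (h : Quad G) (z u : ℂ) : IsHom 2 (G z u) := by
  obtain ⟨B, -, e⟩ := h
  refine ⟨∑ i, ∑ j, MvPolynomial.C (B i j z u) * (MvPolynomial.X i * MvPolynomial.X j),
    MvPolynomial.IsHomogeneous.sum _ _ _ fun i _ => MvPolynomial.IsHomogeneous.sum _ _ _ fun j _ =>
      ((MvPolynomial.isHomogeneous_X ℂ i).mul (MvPolynomial.isHomogeneous_X ℂ j)).C_mul _,
    fun x => ?_⟩
  simp [e, co, mul_assoc]

lemma Quad.hol {G : ℂ → ℂ → V → ℂ} (h : Quad G) :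
    Differentiable ℂ fun p : ℂ × ℂ × V => G p.1 p.2.1 p.2.2 := by
  obtain ⟨B, hB, e⟩ := h
  simp only [e]
  refine Differentiable.fun_sum fun i _ => Differentiable.fun_sum fun j _ => ?_
  have h1 : Differentiable ℂ fun p : ℂ × ℂ × V => B i j p.1 p.2.1 :=
    (hB i j).1.comp (f := fun p : ℂ × ℂ × V => (p.1, p.2.1)) (by fun_prop)
  have h2 : ∀ k, Differentiable ℂ fun p : ℂ × ℂ × V => co p.2.2 k := by
    rintro (k | k) <;> simp only [co, Sum.elim_inl, Sum.elim_inr] <;> fun_prop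
  exact (h1.mul (h2 i)).mul (h2 j)

lemma Quad.per {G : ℂ → ℂ → V → ℂ} (h : Quad G) (z u : ℂ) (x : V) : G (z + 1) u x = G z u x := by
  obtain ⟨B, hB, e⟩ := h
  simp only [e, fun i j => (hB i j).2]

/-- A quadric regular at infinity. -/
def Regular (τ : ℂ) (G Gi : ℂ → ℂ → V → ℂ) : Prop :=
  Quad G ∧ Quad Gi ∧ ∀ z t x, t ≠ 0 → Gi z t⁻¹ (atInfty τ z t x) = G z t x

lemma Regular.zero : Regular τ (fun _ _ _ => 0) (fun _ _ _ => 0) :=
  ⟨Quad.zero, Quad.zero, fun _ _ _ _ => rfl⟩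

lemma Regular.add {G Gi H Hi : ℂ → ℂ → V → ℂ} (hG : Regular τ G Gi) (hH : Regular τ H Hi) :
    Regular τ (fun z u x => G z u x + H z u x) (fun z u x => Gi z u x + Hi z u x) :=
  ⟨hG.1.add hH.1, hG.2.1.add hH.2.1, fun z t x ht => by simp only [hG.2.2 z t x ht, hH.2.2 z t x ht]⟩

lemma Regular.smul {G Gi : ℂ → ℂ → V → ℂ} {c : ℂ → ℂ} (hc : Per c) (hG : Regular τ G Gi) :
    Regular τ (fun z u x => c z * G z u x) (fun z u x => c z * Gi z u x) :=
  ⟨hG.1.smul (Coef.of_per hc), hG.2.1.smul (Coef.of_per hc), fun z t x ht => by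
    simp only [hG.2.2 z t x ht]⟩

lemma Regular.sum {α : Type*} (s : Finset α) {G Gi : α → ℂ → ℂ → V → ℂ}
    (h : ∀ k ∈ s, Regular τ (G k) (Gi k)) :
    Regular τ (fun z u x => ∑ k ∈ s, G k z u x) (fun z u x => ∑ k ∈ s, Gi k z u x) :=
  ⟨Quad.sum s fun k hk => (h k hk).1, Quad.sum s fun k hk => (h k hk).2.1, fun z t x ht =>
    Finset.sum_congr rfl fun k hk => (h k hk).2.2 z t x ht⟩

/-- `G` has a limit at infinity along each fibre point given at infinity. -/
def Bdd (τ : ℂ) (G : ℂ → ℂ → V → ℂ) : Prop :=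
  ∀ z (y : V), ∃ L, Tendsto (fun t => G z t (fromInfty τ z t⁻¹ y)) (cocompact ℂ) (𝓝 L)

lemma eventually_ne (c : ℂ) : ∀ᶠ t in cocompact ℂ, t ≠ c :=
  Filter.mem_cocompact.2 ⟨{c}, isCompact_singleton, fun _ h => h⟩

lemma tendsto_inv_cocompact : Tendsto (fun t : ℂ => t⁻¹) (cocompact ℂ) (𝓝 0) := by
  rw [← Metric.cobounded_eq_cocompact]
  exact tendsto_inv₀_cobounded

lemma Bdd.add {G H : ℂ → ℂ → V → ℂ} (hG : Bdd τ G) (hH : Bdd τ H) :
    Bdd τ fun z u x => G z u x + H z u x := fun z y => by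
  obtain ⟨L, hL⟩ := hG z y
  obtain ⟨M, hM⟩ := hH z y
  exact ⟨L + M, hL.add hM⟩

lemma Regular.bdd {G Gi : ℂ → ℂ → V → ℂ} (h : Regular τ G Gi) : Bdd τ G := fun z y => by
  refine ⟨Gi z 0 y, Tendsto.congr' ((eventually_ne 0).mono fun t ht => ?_)
    ((h.2.1.hol.continuous.comp (Continuous.prodMk continuous_const
      (Continuous.prodMk continuous_id continuous_const))).tendsto 0 |>.comp tendsto_inv_cocompact)⟩
  show Gi z t⁻¹ y = G z t (fromInfty τ z t⁻¹ y)
  rw [← h.2.2 z t _ ht, atInfty_fromInfty' τ z ht]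

/-- The pull back by the generator of the descent, without twist. -/
def pull (τ : ℂ) (G : ℂ → ℂ → V → ℂ) (z t : ℂ) (x : V) : ℂ :=
  G (z + τ) (t + kap) (x.1, (m τ z)⁻¹ * x.2)

lemma Quad.pull {G : ℂ → ℂ → V → ℂ} (h : Quad G) : Quad (pull τ G) := by
  obtain ⟨B, hB, e⟩ := h
  have hw : Per fun z => (m τ z)⁻¹ :=
    ⟨(differentiable_m τ).inv (m_ne_zero τ), fun z => by simp only [m_add_one]⟩
  let s : Fin 6 ⊕ Unit → ℂ → ℂ := fun i z => Sum.elim (fun _ => 1) (fun _ => (m τ z)⁻¹) i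
  have hs : ∀ i, Coef fun z _ => s i z := by
    rintro (i | i)
    · exact Coef.const 1
    · exact Coef.of_per hw
  have hshift : ∀ i j, Coef fun z u => B i j (z + τ) (u + kap) := fun i j =>
    ⟨(hB i j).1.comp ((differentiable_fst.add_const τ).prodMk (differentiable_snd.add_const kap)),
      fun z u => by simp only [show z + 1 + τ = z + τ + 1 by ring, (hB i j).2]⟩
  refine ⟨fun i j z u => B i j (z + τ) (u + kap) * s i z * s j z,
    fun i j => ((hshift i j).mul (hs i)).mul (hs j), fun z u x => ?_⟩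
  have hc : ∀ i, co (x.1, (m τ z)⁻¹ * x.2) i = s i z * co x i := by
    rintro (i | i) <;> simp [co, s]
  simp only [Jet.pull, e, hc]
  exact Finset.sum_congr rfl fun i _ => Finset.sum_congr rfl fun j _ => by ring

lemma Regular.bdd_pull (hτ : 0 < τ.im) {G Gi : ℂ → ℂ → V → ℂ} (h : Regular τ G Gi) :
    Bdd τ (pull τ G) := fun z y => by
  set e := eP τ 1 z
  have he : e ≠ 0 := eP_ne_zero τ 1 z
  let g : ℂ → ℂ := fun s =>
    e ^ 2 * Gi (z + τ) (s / (1 + kap * s)) (descI τ 1 z s y)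
  have hg : ContinuousAt g 0 := by
    have h0 : (1 + kap * (0 : ℂ)) ≠ 0 := by simp
    have h1 : ContinuousAt (fun s : ℂ => s / (1 + kap * s)) 0 :=
      continuousAt_id.div (by fun_prop) h0
    have h2 : ContinuousAt (fun s : ℂ => descI τ 1 z s y) 0 := by
      simp only [descI, Nat.cast_one, one_mul]
      fun_prop (disch := simp)
    exact ((h.2.1.hol.continuous.continuousAt).comp
      (f := fun s => (z + τ, s / (1 + kap * s), descI τ 1 z s y))
      (continuousAt_const.prodMk (h1.prodMk h2))).const_mul _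
  refine ⟨g 0, Tendsto.congr' (((eventually_ne 0).and (eventually_ne (-kap))).mono fun t ht => ?_)
    (hg.tendsto.comp tendsto_inv_cocompact)⟩
  obtain ⟨ht0, htk⟩ := ht
  have ht1 : t + ((1 : ℕ) : ℂ) * kap ≠ 0 := fun h' => htk (by push_cast at h'; linear_combination h')
  set x := fromInfty τ z t⁻¹ y with hx
  have hy : atInfty τ z t x = y := atInfty_fromInfty' τ z ht0 y
  show e ^ 2 * Gi (z + τ) (t⁻¹ / (1 + kap * t⁻¹)) (descI τ 1 z t⁻¹ y) = pull τ G z t x
  have h3 : t⁻¹ / (1 + kap * t⁻¹) = (t + kap)⁻¹ := by simpa using inv_add_period 1 ht0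
  rw [← hy, descI_atInfty hτ 1 z ht0 ht1, h3, Nat.cast_one, one_mul, one_mul,
    h.2.2 _ _ _ (by simpa using ht1)]
  have h4 : desc τ 1 z x = e⁻¹ • ((x.1, (m τ z)⁻¹ * x.2) : V) := by
    rw [desc, Prod.smul_mk, smul_eq_mul, mul_inv, mq_one, mul_assoc]
  obtain ⟨B, -, eB⟩ := h.1
  have hco : ∀ i, co (e⁻¹ • ((x.1, (m τ z)⁻¹ * x.2) : V)) i =
      e⁻¹ * co (x.1, (m τ z)⁻¹ * x.2) i := by rintro (i | i) <;> simp [co]
  simp only [h4, Jet.pull, eB, hco, Finset.mul_sum]
  exact Finset.sum_congr rfl fun i _ => Finset.sum_congr rfl fun j _ => by field_simp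

/-- **Span lemma.** -/
theorem lead_zero {G : ℂ → ℂ → V → ℂ} (hQ : Quad G) (hB : Bdd τ G)
    (h0 : ∀ z t φ, G z t (φ, 0) = 0) :
    ∃ X : ℂ → Fin 6 → ℂ, Per X ∧ (∀ z, ∀ d < 3, X z ⬝ᵥ thd τ d z = 0) ∧
      ∀ z t x, G z t x = x.2 * (X z ⬝ᵥ x.1) := by
  obtain ⟨B, hBc, e⟩ := hQ
  let A : ℂ → ℂ → Fin 6 → ℂ := fun z t i => B (.inl i) (.inr ()) z t + B (.inr ()) (.inl i) z t
  let Y : ℂ → ℂ → ℂ := B (.inr ()) (.inr ())
  have hsplit : ∀ z t x, G z t x = x.2 * (A z t ⬝ᵥ x.1) + x.2 ^ 2 * Y z t := fun z t x => by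
    have h := h0 z t x.1
    rw [e] at h ⊢
    simp only [Fintype.sum_sum_type, co, Sum.elim_inl, Sum.elim_inr, Finset.univ_unique,
      PUnit.default_eq_unit, Finset.sum_singleton, mul_zero, add_zero, zero_mul,
      Finset.sum_const_zero] at h ⊢
    simp only [A, Y, dotProduct, add_mul, Finset.sum_add_distrib, mul_add, Finset.mul_sum, h, zero_add]
    simp only [mul_comm, sq]
    ring_nf
  have hAd : ∀ z, Differentiable ℂ (A z) := fun z => differentiable_pi.2 fun i =>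
    ((hBc (.inl i) (.inr ())).1.comp ((differentiable_const z).prodMk differentiable_id)).add
      ((hBc (.inr ()) (.inl i)).1.comp ((differentiable_const z).prodMk differentiable_id))
  have hYd : ∀ z, Differentiable ℂ (Y z) := fun z =>
    (hBc _ _).1.comp ((differentiable_const z).prodMk differentiable_id)
  let S : ℂ → ℂ → ℂ := fun z t => -t * (A z t ⬝ᵥ Gp τ z t) + t ^ 4 * Y z t
  have hval : ∀ z (ψ : Fin 6 → ℂ) t, t ≠ 0 →
      G z t (fromInfty τ z t⁻¹ (ψ, 1)) = -(A z t ⬝ᵥ ψ) + S z t := fun z ψ t ht => by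
    have hf : fromInfty τ z t⁻¹ (ψ, 1) = ((t ^ 2)⁻¹ • ψ + t⁻¹ • Gp τ z t, -t ^ 2) := by
      refine Prod.ext ?_ ?_
      · funext i
        simp only [fromInfty, Gi_eq_Gp τ z (inv_ne_zero ht), inv_inv, Pi.add_apply, Pi.smul_apply,
          smul_eq_mul]
        field_simp
      · simp [fromInfty]
    rw [hsplit, hf]
    simp only [dotProduct_add, dotProduct_smul, smul_eq_mul, S]
    field_simp
    ring
  have hlimS : ∀ z, ∃ L, Tendsto (S z) (cocompact ℂ) (𝓝 L) := fun z => by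
    obtain ⟨L, hL⟩ := hB z (0, 1)
    exact ⟨L, hL.congr' ((eventually_ne 0).mono fun t ht => by simp [hval z 0 t ht])⟩
  have hA0 : ∀ z t, A z t = A z 0 := fun z t => by
    funext i
    obtain ⟨L, hL⟩ := hB z (Pi.single i 1, 1)
    obtain ⟨M, hM⟩ := hlimS z
    have hlim : Tendsto (fun t => A z t i) (cocompact ℂ) (𝓝 (M - L)) :=
      (hM.sub hL).congr' ((eventually_ne 0).mono fun t ht => by simp [hval z _ t ht])
    have hd : Differentiable ℂ fun t => A z t i := differentiable_pi.1 (hAd z) i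
    rw [hd.apply_eq_of_tendsto_cocompact t hlim, hd.apply_eq_of_tendsto_cocompact 0 hlim]
  have hS0 : ∀ z t, -(A z 0 ⬝ᵥ Gp τ z t) + t ^ 3 * Y z t = 0 := fun z t => by
    obtain ⟨M, hM⟩ := hlimS z
    have hGp : Differentiable ℂ fun t => Gp τ z t := by unfold Gp; fun_prop
    have hd : Differentiable ℂ (S z) := by
      have := hAd z
      have := hYd z
      simp only [S, dotProduct]
      fun_prop
    have hz : ∀ t, S z t = 0 := fun t => by
      rw [hd.apply_eq_of_tendsto_cocompact t hM, ← hd.apply_eq_of_tendsto_cocompact 0 hM]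
      simp [S]
    have hdense : (fun t => -(A z 0 ⬝ᵥ Gp τ z t) + t ^ 3 * Y z t) = fun _ => 0 := by
      refine Continuous.ext_on (dense_compl_singleton (0 : ℂ)) ?_ continuous_const fun t ht => ?_
      · have := (hYd z).continuous
        have := hGp.continuous
        simp only [dotProduct]
        fun_prop
      · have h1 := hz t
        simp only [S, hA0 z t] at h1
        refine (mul_eq_zero.1 (?_ : t * (-(A z 0 ⬝ᵥ Gp τ z t) + t ^ 3 * Y z t) = 0)).resolve_left ht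
        linear_combination h1
    exact congrFun hdense t
  have hX : ∀ z, A z 0 ⬝ᵥ thd τ 2 z = 0 ∧ A z 0 ⬝ᵥ thd τ 1 z = 0 ∧ A z 0 ⬝ᵥ thd τ 0 z = 0 ∧
      ∀ t, Y z t = 0 := fun z => by
    have hdot : ∀ t, A z 0 ⬝ᵥ Gp τ z t = t ^ 2 * (A z 0 ⬝ᵥ thd τ 0 z) +
        t * (A z 0 ⬝ᵥ thd τ 1 z) + A z 0 ⬝ᵥ thd τ 2 z := fun t => by
      simp [Gp, dotProduct_add, dotProduct_smul]
    have h2 : A z 0 ⬝ᵥ thd τ 2 z = 0 := by
      have := hS0 z 0
      rw [hdot] at this
      simpa using this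
    have step : ∀ f : ℂ → ℂ, Continuous f → (∀ t, t * f t = 0) → ∀ t, f t = 0 := fun f hf h t =>
      congrFun (Continuous.ext_on (dense_compl_singleton (0 : ℂ)) hf
        (continuous_const (y := (0 : ℂ))) fun t ht => (mul_eq_zero.1 (h t)).resolve_left ht) t
    have hc := (hYd z).continuous
    have h3 := step (fun t => -(A z 0 ⬝ᵥ thd τ 1 z) - t * (A z 0 ⬝ᵥ thd τ 0 z) + t ^ 2 * Y z t)
      (by fun_prop) fun t => by linear_combination hS0 z t + hdot t + h2
    have h1 : A z 0 ⬝ᵥ thd τ 1 z = 0 := by simpa using h3 0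
    have h4 := step (fun t => -(A z 0 ⬝ᵥ thd τ 0 z) + t * Y z t)
      (by fun_prop) fun t => by linear_combination h3 t + h1
    have h5 : A z 0 ⬝ᵥ thd τ 0 z = 0 := by simpa using h4 0
    exact ⟨h2, h1, h5, step (Y z) hc fun t => by linear_combination h4 t + h5⟩
  refine ⟨fun z => A z 0, ⟨differentiable_pi.2 fun i => ?_, fun z => ?_⟩, fun z d hd => ?_,
    fun z t x => by rw [hsplit, hA0, (hX z).2.2.2]; ring⟩
  · exact ((hBc (.inl i) (.inr ())).1.comp (differentiable_id.prodMk (differentiable_const 0))).add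
      ((hBc (.inr ()) (.inl i)).1.comp (differentiable_id.prodMk (differentiable_const 0)))
  · funext i
    simp only [A, fun a b => (hBc a b).2]
  · obtain ⟨a, b, c, -⟩ := hX z
    interval_cases d <;> assumption

end Vale.Agent.P296.Ample.Jet
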