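import Vale.Agent.P296.Ample.Jet.Defs
import Vale.Agent.P296.Ample.Jet.Quad

/-!
# P296: regular lifts of the monomials `t ^ r * φ i * φ j`, `r ≤ 4`
-/

noncomputable section
namespace Vale.Agent.P296.Ample.Jet
open Model Theta Matrix Polynomial

/-- `t^r (K φ)_i (D_n φ)` corrected. -/
def kdP (r n : ℕ) (t a k d : ℂ) : ℂ :=
  t ^ r * k * d + if 3 ≤ r + n then a * t ^ (r + n - 3) * k else 0

/-- The same in the chart at infinity. -/
def kdI (r n : ℕ) (s b k d : ℂ) : ℂ :=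
  s ^ (4 - r) * k * d + if 3 ≤ r + n then 0 else b * s ^ (3 - r - n) * k

/-- The correction weight. -/
def omega (r n m : ℕ) : ℂ :=
  1 - (if 3 ≤ r + n then 1 else 0) - (if 3 ≤ r + m then 1 else 0)

/-- `t^r (D_n φ) (D_m φ)` corrected. -/
def ddP (r n m : ℕ) (t a : ℂ) (d : ℕ → ℂ) : ℂ :=
  t ^ r * d n * d m + (if 3 ≤ r + n then a * t ^ (r + n - 3) * d m else 0)
    + (if 3 ≤ r + m then a * t ^ (r + m - 3) * d n else 0)
    + if 6 ≤ r + n + m then -omega r n m * a ^ 2 * t ^ (r + n + m - 6)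
      else if 3 ≤ r + n + m then omega r n m * a * d (r + n + m - 3) else 0

/-- The same in the chart at infinity. -/
def ddI (r n m : ℕ) (s b : ℂ) (d : ℕ → ℂ) : ℂ :=
  s ^ (4 - r) * d n * d m + (if 3 ≤ r + n then 0 else b * s ^ (3 - r - n) * d m)
    + (if 3 ≤ r + m then 0 else b * s ^ (3 - r - m) * d n)
    + if 6 ≤ r + n + m then 0
      else if 3 ≤ r + n + m then -omega r n m * b * d (r + n + m - 3)
      else omega r n m * b ^ 2 * s ^ (2 - r - n - m)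

lemma kd_glue {r n : ℕ} (hr : r ≤ 4) (hn : n ≤ 2) {t : ℂ} (ht : t ≠ 0) (a k d : ℂ) :
    kdI r n t⁻¹ (-a / t ^ 2) (t ^ 2 * k) (t ^ 2 * d + a / t * t ^ n) = kdP r n t a k d := by
  interval_cases r <;> interval_cases n <;> simp [kdP, kdI] <;> field_simp <;> ring

lemma dd_glue {r n m : ℕ} (hr : r ≤ 4) (hn : n ≤ 2) (hm : m ≤ 2) {t : ℂ} (ht : t ≠ 0) (a : ℂ)
    (d d' : ℕ → ℂ) (hd : ∀ k ≤ 2, d' k = t ^ 2 * d k + a / t * t ^ k) :
    ddI r n m t⁻¹ (-a / t ^ 2) d' = ddP r n m t a d := by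
  interval_cases r <;> interval_cases n <;> interval_cases m <;>
    simp [ddP, ddI, omega, hd] <;> field_simp <;> ring

variable {τ : ℂ} (J : JetFrame τ)

/-- The dual vectors, indexed by natural numbers. -/
def pk (k : ℕ) (z : ℂ) : Fin 6 → ℂ := if k = 0 then J.P 0 z else if k = 1 then J.P 1 z else J.P 2 z

/-- The value of `D_k φ`. -/
def dv (z : ℂ) (φ : Fin 6 → ℂ) (k : ℕ) : ℂ := pk J k z ⬝ᵥ φ

/-- The covector of the `i`-th entry of `K φ = φ - ∑ (D_n φ) θ^(2-n)`. -/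
def kv (i : Fin 6) (z : ℂ) : Fin 6 → ℂ :=
  Pi.single i 1 - ∑ n : Fin 3, thd τ (2 - (n : ℕ)) z i • J.P n z

lemma pk_eq (n : Fin 3) (z : ℂ) : pk J (n : ℕ) z = J.P n z := by fin_cases n <;> simp [pk]

lemma per_pk (k : ℕ) : Per (pk J k) := by
  unfold pk
  split_ifs <;> exact J.perP _

lemma per_entry {f : ℂ → Fin 6 → ℂ} (h : Per f) (i : Fin 6) : Per fun z => f z i :=
  ⟨differentiable_pi.1 h.1 i, fun z => congrFun (h.2 z) i⟩

lemma per_thd (hτ : 0 < τ.im) (d : ℕ) : Per (thd τ d) :=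
  ⟨differentiable_thd hτ d, thd_add_one τ d⟩

lemma per_kv (hτ : 0 < τ.im) (i : Fin 6) : Per (kv J i) :=
  ⟨(differentiable_const _).sub (Differentiable.fun_sum fun n _ =>
      (per_entry (per_thd hτ _) i).1.smul (J.perP n).1),
    fun z => by simp only [kv, thd_add_one, (J.perP _).2]⟩

lemma kv_jet (z : ℂ) (i : Fin 6) (k : Fin 3) : kv J i z ⬝ᵥ thd τ (2 - (k : ℕ)) z = 0 := by
  simp [kv, sub_dotProduct, sum_dotProduct, smul_dotProduct, J.dual]

lemma kv_split (z : ℂ) (i : Fin 6) (φ : Fin 6 → ℂ) :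
    φ i = kv J i z ⬝ᵥ φ + ∑ n : Fin 3, thd τ (2 - (n : ℕ)) z i * dv J z φ n := by
  simp [kv, dv, pk_eq, sub_dotProduct, sum_dotProduct, smul_dotProduct]

lemma Gp_jets (z t : ℂ) :
    Gp τ z t = ∑ n : Fin 3, t ^ (n : ℕ) • thd τ (2 - (n : ℕ)) z := by
  funext i
  simp [Gp, Fin.sum_univ_three]
  ring

lemma dv_atInfty (z t : ℂ) (x : V) {k : ℕ} (hk : k ≤ 2) :
    dv J z (atInfty τ z t x).1 k = t ^ 2 * dv J z x.1 k + x.2 / t * t ^ k := by
  have h : dv J z (Gp τ z t) k = t ^ k := by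
    obtain ⟨n, rfl⟩ : ∃ n : Fin 3, (n : ℕ) = k := ⟨⟨k, by omega⟩, rfl⟩
    simp [dv, pk_eq, Gp_jets, dotProduct_sum, dotProduct_smul, J.dual]
  simp only [dv] at h ⊢
  simp [atInfty, dotProduct_add, dotProduct_smul, h]

lemma kv_atInfty (z t : ℂ) (x : V) (i : Fin 6) :
    kv J i z ⬝ᵥ (atInfty τ z t x).1 = t ^ 2 * (kv J i z ⬝ᵥ x.1) := by
  have h : kv J i z ⬝ᵥ Gp τ z t = 0 := by
    simp [Gp_jets, dotProduct_sum, dotProduct_smul, kv_jet]
  simp [atInfty, dotProduct_add, dotProduct_smul, h]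

variable {J}

lemma quad_ite {p : Prop} [Decidable p] {G H : ℂ → ℂ → V → ℂ} (hG : Quad G) (hH : Quad H) :
    Quad fun z u x => if p then G z u x else H z u x := by
  split_ifs <;> assumption

lemma Quad.congr {G H : ℂ → ℂ → V → ℂ} (h : Quad G) (e : ∀ z u x, H z u x = G z u x) : Quad H := by
  rwa [show H = G from funext fun z => funext fun u => funext (e z u)]

lemma lin_dv (k : ℕ) : Lin fun z _ x => dv J z x.1 k := Lin.dot fun i => per_entry (per_pk J k) i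

lemma lin_kv (hτ : 0 < τ.im) (i : Fin 6) : Lin fun z _ x => kv J i z ⬝ᵥ x.1 :=
  Lin.dot fun j => per_entry (per_kv J hτ i) j

/-- Monomials used in the corrections. -/
lemma quad_mono (c : ℂ) (k : ℕ) {L L' : ℂ → ℂ → V → ℂ} (hL : Lin L) (hL' : Lin L') :
    Quad fun z u x => c * u ^ k * (L z u x * L' z u x) :=
  (hL.mul hL').smul ((Coef.const c).mul (Coef.pow k))

lemma regular_kk (hτ : 0 < τ.im) {r : ℕ} (hr : r ≤ 4) (i j : Fin 6) :
    Regular τ (fun z t x => t ^ r * (kv J i z ⬝ᵥ x.1) * (kv J j z ⬝ᵥ x.1))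
      (fun z s x => s ^ (4 - r) * (kv J i z ⬝ᵥ x.1) * (kv J j z ⬝ᵥ x.1)) := by
  refine ⟨(quad_mono 1 r (lin_kv hτ i) (lin_kv hτ j)).congr fun z u x => by ring,
    (quad_mono 1 (4 - r) (lin_kv hτ i) (lin_kv hτ j)).congr fun z u x => by ring,
    fun z t x ht => ?_⟩
  simp only [kv_atInfty]
  interval_cases r <;> norm_num <;> field_simp

lemma regular_kd (hτ : 0 < τ.im) {r n : ℕ} (hr : r ≤ 4) (hn : n ≤ 2) (i : Fin 6) :
    Regular τ (fun z t x => kdP r n t x.2 (kv J i z ⬝ᵥ x.1) (dv J z x.1 n))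
      (fun z s x => kdI r n s x.2 (kv J i z ⬝ᵥ x.1) (dv J z x.1 n)) := by
  refine ⟨?_, ?_, fun z t x ht => ?_⟩
  · exact ((quad_mono 1 r (lin_kv hτ i) (lin_dv n)).add (quad_ite (p := 3 ≤ r + n)
      (quad_mono 1 (r + n - 3) Lin.snd (lin_kv hτ i)) Quad.zero)).congr fun z u x => by
        simp only [kdP]; split_ifs <;> ring
  · exact ((quad_mono 1 (4 - r) (lin_kv hτ i) (lin_dv n)).add (quad_ite (p := 3 ≤ r + n)
      Quad.zero (quad_mono 1 (3 - r - n) Lin.snd (lin_kv hτ i)))).congr fun z u x => by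
        simp only [kdI]; split_ifs <;> ring
  · simp only [kv_atInfty, dv_atInfty J z t x hn]
    exact kd_glue hr hn ht _ _ _

lemma regular_dd {r n m : ℕ} (hr : r ≤ 4) (hn : n ≤ 2) (hm : m ≤ 2) :
    Regular τ (fun z t x => ddP r n m t x.2 (dv J z x.1))
      (fun z s x => ddI r n m s x.2 (dv J z x.1)) := by
  refine ⟨?_, ?_, fun z t x ht => ?_⟩
  · exact (((quad_mono 1 r (lin_dv n) (lin_dv m)).add (quad_ite (p := 3 ≤ r + n)
      (quad_mono 1 (r + n - 3) Lin.snd (lin_dv m)) Quad.zero)).add (quad_ite (p := 3 ≤ r + m)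
      (quad_mono 1 (r + m - 3) Lin.snd (lin_dv n)) Quad.zero)).add (quad_ite (p := 6 ≤ r + n + m)
      (quad_mono (-omega r n m) (r + n + m - 6) Lin.snd Lin.snd) (quad_ite (p := 3 ≤ r + n + m)
      (quad_mono (omega r n m) 0 Lin.snd (lin_dv (r + n + m - 3))) Quad.zero))
      |>.congr fun z u x => by simp only [ddP]; split_ifs <;> ring
  · exact (((quad_mono 1 (4 - r) (lin_dv n) (lin_dv m)).add (quad_ite (p := 3 ≤ r + n)
      Quad.zero (quad_mono 1 (3 - r - n) Lin.snd (lin_dv m)))).add (quad_ite (p := 3 ≤ r + m)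
      Quad.zero (quad_mono 1 (3 - r - m) Lin.snd (lin_dv n)))).add (quad_ite (p := 6 ≤ r + n + m)
      Quad.zero (quad_ite (p := 3 ≤ r + n + m)
      (quad_mono (-omega r n m) 0 Lin.snd (lin_dv (r + n + m - 3)))
      (quad_mono (omega r n m) (2 - r - n - m) Lin.snd Lin.snd)))
      |>.congr fun z u x => by simp only [ddI]; split_ifs <;> ring
  · exact dd_glue hr hn hm ht _ _ _ fun k hk => dv_atInfty J z t x hk

variable (J)

/-- The lift of `t ^ r * φ i * φ j`. -/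
def lift (r : ℕ) (i j : Fin 6) (z t : ℂ) (x : V) : ℂ :=
  t ^ r * (kv J i z ⬝ᵥ x.1) * (kv J j z ⬝ᵥ x.1)
    + ∑ n : Fin 3, thd τ (2 - (n : ℕ)) z j * kdP r n t x.2 (kv J i z ⬝ᵥ x.1) (dv J z x.1 n)
    + ∑ n : Fin 3, thd τ (2 - (n : ℕ)) z i * kdP r n t x.2 (kv J j z ⬝ᵥ x.1) (dv J z x.1 n)
    + ∑ n : Fin 3, thd τ (2 - (n : ℕ)) z i * ∑ m : Fin 3, thd τ (2 - (m : ℕ)) z j *
        ddP r n m t x.2 (dv J z x.1)

/-- The lift in the chart at infinity. -/
def liftI (r : ℕ) (i j : Fin 6) (z s : ℂ) (x : V) : ℂ :=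
  s ^ (4 - r) * (kv J i z ⬝ᵥ x.1) * (kv J j z ⬝ᵥ x.1)
    + ∑ n : Fin 3, thd τ (2 - (n : ℕ)) z j * kdI r n s x.2 (kv J i z ⬝ᵥ x.1) (dv J z x.1 n)
    + ∑ n : Fin 3, thd τ (2 - (n : ℕ)) z i * kdI r n s x.2 (kv J j z ⬝ᵥ x.1) (dv J z x.1 n)
    + ∑ n : Fin 3, thd τ (2 - (n : ℕ)) z i * ∑ m : Fin 3, thd τ (2 - (m : ℕ)) z j *
        ddI r n m s x.2 (dv J z x.1)

lemma regular_lift (hτ : 0 < τ.im) {r : ℕ} (hr : r ≤ 4) (i j : Fin 6) :
    Regular τ (lift J r i j) (liftI J r i j) := by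
  have hc : ∀ (n : Fin 3) (k : Fin 6), Per fun z => thd τ (2 - (n : ℕ)) z k :=
    fun n k => per_entry (per_thd hτ _) k
  exact (((regular_kk hτ hr i j).add (Regular.sum _ fun n _ =>
    (regular_kd hτ hr (by omega) i).smul (hc n j))).add (Regular.sum _ fun n _ =>
    (regular_kd hτ hr (by omega) j).smul (hc n i))).add (Regular.sum _ fun n _ =>
    (Regular.sum _ fun m _ =>
      (regular_dd hr (by omega) (by omega)).smul (hc m j)).smul (hc n i))

lemma lift_lead (r : ℕ) (i j : Fin 6) (z t : ℂ) (φ : Fin 6 → ℂ) :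
    lift J r i j z t (φ, 0) = t ^ r * φ i * φ j := by
  conv_rhs => rw [kv_split J z i φ, kv_split J z j φ]
  simp [lift, kdP, ddP, Fin.sum_univ_three]
  ring

/-- `f` differs from `f₀` by a multiple of `a`, polynomially in `t`. -/
def Rem (f f₀ : ℂ → V → ℂ) : Prop :=
  ∃ (X : Fin 6 → ℂ[X]) (Y : ℂ[X]), ∀ t x,
    f t x = f₀ t x + x.2 * (∑ k, (X k).eval t * x.1 k) + x.2 ^ 2 * Y.eval t

lemma Rem.refl (f : ℂ → V → ℂ) : Rem f f := ⟨0, 0, fun t x => by simp⟩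

lemma Rem.add {f f₀ g g₀ : ℂ → V → ℂ} (hf : Rem f f₀) (hg : Rem g g₀) :
    Rem (fun t x => f t x + g t x) (fun t x => f₀ t x + g₀ t x) := by
  obtain ⟨X, Y, e⟩ := hf
  obtain ⟨X', Y', e'⟩ := hg
  exact ⟨X + X', Y + Y', fun t x => by
    simp only [e, e', Pi.add_apply, eval_add, add_mul, Finset.sum_add_distrib]; ring⟩

lemma Rem.smul (c : ℂ) {f f₀ : ℂ → V → ℂ} (hf : Rem f f₀) :
    Rem (fun t x => c * f t x) (fun t x => c * f₀ t x) := by
  obtain ⟨X, Y, e⟩ := hf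
  exact ⟨fun k => C c * X k, C c * Y, fun t x => by
    simp only [e, eval_mul, eval_C, mul_assoc, ← Finset.mul_sum]; ring⟩

lemma Rem.sum {α : Type*} (s : Finset α) {f f₀ : α → ℂ → V → ℂ}
    (h : ∀ k ∈ s, Rem (f k) (f₀ k)) :
    Rem (fun t x => ∑ k ∈ s, f k t x) (fun t x => ∑ k ∈ s, f₀ k t x) := by
  classical
  induction s using Finset.induction_on with
  | empty => exact Rem.refl _
  | insert k s hk ih =>
    simp only [Finset.sum_insert hk]
    exact (h k (Finset.mem_insert_self k s)).add (ih fun l hl => h l (Finset.mem_insert_of_mem hl))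

lemma Rem.lin (c : ℂ) (j : ℕ) (v : Fin 6 → ℂ) :
    Rem (fun t x => c * (x.2 * t ^ j * (v ⬝ᵥ x.1))) (fun _ _ => 0) := by
  refine ⟨fun k => C (c * v k) * Polynomial.X ^ j, 0, fun t x => ?_⟩
  simp only [eval_mul, eval_C, eval_pow, eval_X, eval_zero, mul_zero, add_zero, zero_add, dotProduct,
    Finset.mul_sum]
  exact Finset.sum_congr rfl fun k _ => by ring

lemma Rem.sq (c : ℂ) (j : ℕ) : Rem (fun t x => c * x.2 ^ 2 * t ^ j) (fun _ _ => 0) :=
  ⟨0, C c * Polynomial.X ^ j, fun t x => by simp; ring⟩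

lemma Rem.congr {f f₀ g g₀ : ℂ → V → ℂ} (h : Rem f f₀) (e : ∀ t x, g t x = f t x)
    (e₀ : ∀ t x, g₀ t x = f₀ t x) : Rem g g₀ := by
  obtain ⟨X, Y, hXY⟩ := h
  exact ⟨X, Y, fun t x => by rw [e, e₀, hXY]⟩

lemma Rem.ite {p : Prop} [Decidable p] {f g : ℂ → V → ℂ} (hf : Rem f (fun _ _ => 0))
    (hg : Rem g (fun _ _ => 0)) : Rem (fun t x => if p then f t x else g t x) (fun _ _ => 0) := by
  split_ifs <;> assumption

lemma lift_rem (r : ℕ) (i j : Fin 6) (z : ℂ) :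
    Rem (fun t x => lift J r i j z t x) (fun t x => t ^ r * x.1 i * x.1 j) := by
  have h0 : Rem (fun (_ : ℂ) (_ : V) => (0 : ℂ)) (fun _ _ => 0) := Rem.refl _
  have hkd : ∀ (n : ℕ) (k : Fin 6),
      Rem (fun t x => kdP r n t x.2 (kv J k z ⬝ᵥ x.1) (dv J z x.1 n))
        (fun t x => t ^ r * (kv J k z ⬝ᵥ x.1) * dv J z x.1 n) := fun n k =>
    ((Rem.refl fun t x => t ^ r * (kv J k z ⬝ᵥ x.1) * dv J z x.1 n).add (Rem.ite (p := 3 ≤ r + n) (Rem.lin 1 (r + n - 3) (kv J k z)) h0)).congr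
      (fun t x => by simp only [kdP]; split_ifs <;> ring) (fun t x => by ring)
  have hdd : ∀ n m : ℕ, Rem (fun t x => ddP r n m t x.2 (dv J z x.1))
      (fun t x => t ^ r * dv J z x.1 n * dv J z x.1 m) := fun n m =>
    ((((Rem.refl fun t x => t ^ r * dv J z x.1 n * dv J z x.1 m).add (Rem.ite (p := 3 ≤ r + n) (Rem.lin 1 (r + n - 3) (pk J m z)) h0)).add
      (Rem.ite (p := 3 ≤ r + m) (Rem.lin 1 (r + m - 3) (pk J n z)) h0)).add
      (Rem.ite (p := 6 ≤ r + n + m) (Rem.sq (-omega r n m) (r + n + m - 6))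
        (Rem.ite (p := 3 ≤ r + n + m) (Rem.lin (omega r n m) 0 (pk J (r + n + m - 3) z)) h0))).congr
      (fun t x => by simp only [ddP, dv]; split_ifs <;> ring) (fun t x => by ring)
  refine ((((Rem.refl fun t x => t ^ r * (kv J i z ⬝ᵥ x.1) * (kv J j z ⬝ᵥ x.1)).add (Rem.sum Finset.univ fun (n : Fin 3) _ =>
      (hkd n i).smul (thd τ (2 - (n : ℕ)) z j))).add
    (Rem.sum Finset.univ fun (n : Fin 3) _ =>
      (hkd n j).smul (thd τ (2 - (n : ℕ)) z i))).add (Rem.sum Finset.univ fun (n : Fin 3) _ =>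
      (Rem.sum Finset.univ fun (m : Fin 3) _ =>
        (hdd n m).smul (thd τ (2 - (m : ℕ)) z j)).smul (thd τ (2 - (n : ℕ)) z i))).congr (fun t x => rfl) fun t x => ?_
  conv_lhs => rw [kv_split J z i x.1, kv_split J z j x.1]
  simp [Fin.sum_univ_three]
  ring

end Vale.Agent.P296.Ample.Jet
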