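import Vale.Agent.P296.Ample.Frame
import Vale.Agent.P296.Ample.Jet.Construct
import Vale.Agent.P296.Ample.Jet.Lift
import Vale.Agent.P296.Theta.DiffFlat

/-!
# P296: families of quadrics with exactly binomial descent, for every period

The lifts descend binomially up to invariant quadrics with periodic coefficients. These coefficients
are constants up to coboundaries, and after a shift of the index by one the constants fit the
binomial law.
-/

noncomputable section
namespace Vale.Agent.P296.Ample.Jet
open Model Theta Matrix Finset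

variable {τ : ℂ}

lemma Per.cst (c : ℂ) : Per fun _ : ℂ => c := ⟨differentiable_const _, fun _ => rfl⟩

lemma Per.sum {α : Type*} (s : Finset α) {f : α → ℂ → ℂ} (h : ∀ k ∈ s, Per (f k)) :
    Per fun z => ∑ k ∈ s, f k z :=
  ⟨Differentiable.fun_sum fun k hk => (h k hk).1,
    fun z => Finset.sum_congr rfl fun k hk => (h k hk).2 z⟩

lemma Per.mul {f g : ℂ → ℂ} (hf : Per f) (hg : Per g) : Per fun z => f z * g z :=
  ⟨hf.1.mul hg.1, fun z => by simp only [hf.2, hg.2]⟩

lemma Per.dot {f g : ℂ → Fin 6 → ℂ} (hf : Per f) (hg : Per g) : Per fun z => f z ⬝ᵥ g z :=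
  Per.sum univ fun k _ => Per.mul (per_entry hf k) (per_entry hg k)

lemma Bdd.const_mul {G : ℂ → ℂ → V → ℂ} (c : ℂ) (h : Bdd τ G) :
    Bdd τ fun z u x => c * G z u x := fun z y => by
  obtain ⟨L, hL⟩ := h z y
  exact ⟨c * L, hL.const_mul c⟩

/-- **The recursion**: periodic corrections making the descent constants fit the shifted law. -/
theorem exists_beta (hτ : 0 < τ.im) (γ : ℕ → ℂ → ℂ) (hγ : ∀ r, Per (γ r)) :
    ∀ N : ℕ, ∃ (c : ℂ) (β : ℕ → ℂ → ℂ), (∀ r, Per (β r)) ∧ ∀ r ≤ N, ∀ z,
      γ r z + β r (z + τ) =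
        ∑ k ∈ range (r + 1), (r.choose k : ℂ) * kap ^ (r - k) * β k z + kap ^ r * c / (r + 1) := by
  intro N
  induction N with
  | zero =>
    obtain ⟨d, f, hf, hfe⟩ := exists_coboundary hτ (hγ 0)
    refine ⟨d, fun _ z => -f z, fun _ => ⟨hf.1.neg, fun z => by simp only [hf.2]⟩, fun r hr z => ?_⟩
    obtain rfl : r = 0 := Nat.le_zero.1 hr
    simp
    linear_combination -(hfe z)
  | succ N ih =>
    obtain ⟨c, β, hβ, hE⟩ := ih
    have hg : Per fun z => -γ (N + 1) z +
        ∑ k ∈ range (N + 1), ((N + 1).choose k : ℂ) * kap ^ (N + 1 - k) * β k z :=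
      Per.add ⟨(hγ _).1.neg, fun z => by simp only [(hγ _).2]⟩
        (Per.sum _ fun k _ => Per.mul (Per.cst _) (hβ k))
    obtain ⟨d, f, hf, hfe⟩ := exists_coboundary hτ hg
    set δ : ℂ := -(d + kap ^ (N + 1) * c / ((N + 1 : ℕ) + 1)) / (((N + 1 : ℕ) : ℂ) * kap) with hδ
    let β' : ℕ → ℂ → ℂ := fun k z => if k = N + 1 then f z else if k = N then β k z + δ else β k z
    have hlow : ∀ k < N, β' k = β k := fun k hk => funext fun z => by
      simp only [β']; rw [if_neg (by omega), if_neg (by omega)]
    have hN : β' N = fun z => β N z + δ := funext fun z => by simp [β']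
    have hN1 : β' (N + 1) = f := funext fun z => by simp [β']
    refine ⟨c, β', fun k => ?_, fun r hr z => ?_⟩
    · rcases eq_or_ne k (N + 1) with rfl | h1
      · rwa [hN1]
      rcases eq_or_ne k N with rfl | h2
      · rw [hN]; exact Per.add (hβ k) (Per.cst δ)
      · rw [show β' k = β k from funext fun z => by simp only [β', if_neg h1, if_neg h2]]; exact hβ k
    rcases lt_trichotomy r N with hr' | rfl | hr'
    · rw [hlow r hr', Finset.sum_congr rfl fun k hk => by
        rw [hlow k (by rw [mem_range] at hk; omega)]]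
      exact hE r hr'.le z
    · have h := hE r le_rfl z
      rw [sum_range_succ] at h ⊢
      rw [hN, Finset.sum_congr rfl fun k hk => by rw [hlow k (mem_range.1 hk)]]
      simp only [Nat.choose_self, Nat.cast_one, Nat.sub_self, pow_zero, one_mul] at h ⊢
      linear_combination h
    · obtain rfl : r = N + 1 := by omega
      have hk : ((N + 1 : ℕ) : ℂ) * kap ≠ 0 :=
        mul_ne_zero (Nat.cast_ne_zero.2 (Nat.succ_ne_zero N)) kap_ne_zero
      have hs : ∑ k ∈ range (N + 1), ((N + 1).choose k : ℂ) * kap ^ (N + 1 - k) * β' k z =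
          ∑ k ∈ range (N + 1), ((N + 1).choose k : ℂ) * kap ^ (N + 1 - k) * β k z +
            ((N + 1 : ℕ) : ℂ) * kap * δ := by
        rw [sum_range_succ, sum_range_succ, hN,
          Finset.sum_congr rfl fun k hk => by rw [hlow k (mem_range.1 hk)]]
        rw [Nat.choose_succ_self_right, show N + 1 - N = 1 by omega, pow_one]
        ring
      rw [sum_range_succ, hs, hN1, Nat.choose_self, Nat.sub_self, hδ, mul_div_cancel₀ _ hk]
      push_cast
      linear_combination hfe z

variable (J : JetFrame τ)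

/-- The invariant quadrics. -/
def phi (l : Fin 3) (z _t : ℂ) (x : V) : ℂ := x.2 * (J.g l z ⬝ᵥ x.1)

/-- The invariant quadrics at infinity. -/
def phiI (l : Fin 3) (z _s : ℂ) (x : V) : ℂ := -1 * (x.2 * (J.g l z ⬝ᵥ x.1))

lemma regular_phi (l : Fin 3) : Regular τ (phi J l) (phiI J l) := by
  have h : Quad (phi J l) := Lin.snd.mul (Lin.dot fun i => per_entry (J.perg l) i)
  refine ⟨h, h.smul (Coef.const (-1)), fun z t x ht => ?_⟩
  have hGp : J.g l z ⬝ᵥ Gp τ z t = 0 := by
    simp [Gp, dotProduct_add, dotProduct_smul, J.orth z l]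
  simp [phi, phiI, atInfty, dotProduct_add, dotProduct_smul, hGp]
  field_simp

lemma pull_phi (l : Fin 3) (z t : ℂ) (x : V) : pull τ (phi J l) z t x = phi J l z t x := by
  simp only [pull, phi, J.gtau, smul_dotProduct, smul_eq_mul]
  field_simp [m_ne_zero τ z]

/-- The descent of the lifts, up to invariant quadrics with periodic coefficients. -/
theorem exists_gamma (hτ : 0 < τ.im) {r : ℕ} (hr : r ≤ 4) (i j : Fin 6) :
    ∃ γ : Fin 3 → ℂ → ℂ, (∀ l, Per (γ l)) ∧ ∀ z t x,
      pull τ (lift J r i j) z t x =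
        ∑ k ∈ range (r + 1), (r.choose k : ℂ) * kap ^ (r - k) * lift J k i j z t x +
          ∑ l, γ l z * phi J l z t x := by
  let G : ℂ → ℂ → V → ℂ := fun z t x => pull τ (lift J r i j) z t x +
    ∑ k ∈ range (r + 1), -((r.choose k : ℂ) * kap ^ (r - k)) * lift J k i j z t x
  have hl : ∀ k ∈ range (r + 1), Regular τ (lift J k i j) (liftI J k i j) := fun k hk =>
    regular_lift J hτ (by rw [mem_range] at hk; omega) i j
  have hQ : Quad G := (regular_lift J hτ hr i j).1.pull.add (Quad.sum _ fun k hk =>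
    (hl k hk).1.smul (Coef.const _))
  have hB : Bdd τ G := ((regular_lift J hτ hr i j).bdd_pull hτ).add
    ((Regular.sum _ fun k hk => (hl k hk).smul (Per.cst _)).bdd)
  have h0 : ∀ z t φ, G z t (φ, 0) = 0 := fun z t φ => by
    simp only [G, pull, mul_zero, lift_lead]
    rw [add_pow, Finset.sum_mul, Finset.sum_mul, ← sum_add_distrib]
    exact sum_eq_zero fun k _ => by ring
  obtain ⟨X, hX, horth, he⟩ := lead_zero hQ hB h0
  refine ⟨fun l z => J.h l z ⬝ᵥ X z, fun l => Per.dot (J.perh l) hX, fun z t x => ?_⟩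
  have h := he z t x
  simp only [G, neg_mul, sum_neg_distrib] at h
  conv_rhs at h => rw [J.span z (X z) (horth z)]
  simp only [sum_dotProduct, smul_dotProduct, smul_eq_mul, Finset.mul_sum] at h
  simp only [phi]
  rw [← sub_eq_iff_eq_add', sub_eq_add_neg, h]
  exact sum_congr rfl fun l _ => by ring

/-- **The binomial families.** -/
theorem exists_families (hτ : 0 < τ.im) : ∃ (ι : Type) (_ : Fintype ι) (F : ι → Frame τ),
    (∀ z (i j : Fin 6) (r : ℕ), r ≤ 4 → ∃ (X : Fin 6 → Polynomial ℂ) (Y : Polynomial ℂ),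
      InSpan F z fun t x => t ^ r * x.1 i * x.1 j + x.2 * (∑ k, (X k).eval t * x.1 k)
        + x.2 ^ 2 * Y.eval t) ∧
    ∀ z (g : Fin 6 → ℂ), (∀ d < 3, thd τ d z ⬝ᵥ g = 0) →
      InSpan F z fun _ x => x.2 * (g ⬝ᵥ x.1) := by
  classical
  obtain ⟨J⟩ := exists_jetFrame hτ
  choose γ hγ hγe using fun (p : Fin 6 × Fin 6) (r : Fin 5) =>
    exists_gamma J hτ (r := (r : ℕ)) (by omega) p.1 p.2
  let γ' : Fin 6 × Fin 6 → Fin 3 → ℕ → ℂ → ℂ := fun p l r =>
    if h : r < 5 then γ p ⟨r, h⟩ l else 0
  choose c β hβ hβe using fun (p : Fin 6 × Fin 6) (l : Fin 3) =>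
    exists_beta hτ (γ' p l) (fun r => by
      simp only [γ']
      split_ifs
      exacts [hγ _ _ _, Per.zero]) 4
  -- corrected lifts
  let Q : Fin 6 × Fin 6 → ℕ → ℂ → ℂ → V → ℂ := fun p r z t x =>
    lift J r p.1 p.2 z t x + ∑ l, β p l r z * phi J l z t x
  let Qi : Fin 6 × Fin 6 → ℕ → ℂ → ℂ → V → ℂ := fun p r z t x =>
    liftI J r p.1 p.2 z t x + ∑ l, β p l r z * phiI J l z t x
  have hQ : ∀ p, ∀ r ≤ 4, Regular τ (Q p r) (Qi p r) := fun p r hr =>
    (regular_lift J hτ hr p.1 p.2).add (Regular.sum _ fun l _ => (regular_phi J l).smul (hβ p l r))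
  have hQt : ∀ p, ∀ r ≤ 4, ∀ z t x, pull τ (Q p r) z t x =
      ∑ k ∈ range (r + 1), (r.choose k : ℂ) * kap ^ (r - k) * Q p k z t x +
        ∑ l, kap ^ r * c p l / (r + 1) * phi J l z t x := fun p r hr z t x => by
    have h1 := hγe p ⟨r, by omega⟩ z t x
    have h2 : ∀ l, β p l r (z + τ) * phi J l z t x + γ p ⟨r, by omega⟩ l z * phi J l z t x =
        (∑ k ∈ range (r + 1), (r.choose k : ℂ) * kap ^ (r - k) * β p l k z +
          kap ^ r * c p l / (r + 1)) * phi J l z t x := fun l => by
      have h := hβe p l r hr z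
      simp only [γ', dif_pos (show r < 5 by omega)] at h
      rw [← h]; ring
    have h3 : pull τ (Q p r) z t x =
        pull τ (lift J r p.1 p.2) z t x + ∑ l, β p l r (z + τ) * phi J l z t x := by
      simp only [Q, pull]
      congr 1
      exact sum_congr rfl fun l _ => congrArg _ (pull_phi J l z t x)
    rw [h3, h1, add_assoc, ← sum_add_distrib, sum_congr rfl fun l _ => (add_comm _ _).trans (h2 l)]
    simp only [Q, mul_add, sum_add_distrib, Finset.mul_sum, Finset.sum_mul, add_mul, ← add_assoc]
    congr 1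
    congr 1
    rw [sum_comm]
    exact sum_congr rfl fun k _ => sum_congr rfl fun l _ => by ring
  -- shifted families
  let R : Fin 6 × Fin 6 → ℕ → ℂ → ℂ → V → ℂ := fun p r =>
    match r with
    | 0 => fun z t x => ∑ l, c p l / kap * phi J l z t x
    | r + 1 => if r ≤ 4 then fun z t x => ((r : ℂ) + 1) * Q p r z t x else fun _ _ _ => 0
  let Ri : Fin 6 × Fin 6 → ℕ → ℂ → ℂ → V → ℂ := fun p r =>
    match r with
    | 0 => fun z t x => ∑ l, c p l / kap * phiI J l z t x
    | r + 1 => if r ≤ 4 then fun z t x => ((r : ℂ) + 1) * Qi p r z t x else fun _ _ _ => 0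
  have hR : ∀ p r, Regular τ (R p r) (Ri p r) := fun p r => by
    rcases r with _ | r
    · exact Regular.sum _ fun l _ => (regular_phi J l).smul (Per.cst _)
    · simp only [R, Ri]
      split_ifs with h
      · exact (hQ p r h).smul (Per.cst _)
      · exact Regular.zero
  have hRt : ∀ p, ∀ r ≤ 5, ∀ z t x, pull τ (R p r) z t x =
      ∑ k ∈ range (r + 1), (r.choose k : ℂ) * kap ^ (r - k) * R p k z t x := fun p r hr z t x => by
    rcases r with _ | r
    · rw [show (0 : ℕ) + 1 = 1 from rfl, sum_range_one, Nat.choose_self, Nat.cast_one, Nat.sub_self,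
        pow_zero, one_mul, one_mul]
      show ∑ l, c p l / kap * pull τ (phi J l) z t x = ∑ l, c p l / kap * phi J l z t x
      exact sum_congr rfl fun l _ => congrArg _ (pull_phi J l z t x)
    · have hr4 : r ≤ 4 := by omega
      have h := hQt p r hr4 z t x
      simp only [pull] at h
      rw [sum_range_succ']
      simp only [pull, R, if_pos hr4, h, Nat.choose_zero_right, Nat.cast_one, Nat.sub_zero, one_mul,
        mul_add, Finset.mul_sum]
      congr 1
      · refine sum_congr rfl fun k hk => ?_
        rw [mem_range] at hk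
        rw [if_pos (show k ≤ 4 by omega), show r + 1 - (k + 1) = r - k by omega]
        have e : ((r + 1).choose (k + 1) : ℂ) * ((k : ℂ) + 1) = ((r : ℂ) + 1) * (r.choose k : ℂ) := by
          exact_mod_cast (Nat.add_one_mul_choose_eq r k).symm
        linear_combination -(kap ^ (r - k) * Q p k z t x) * e
      · refine sum_congr rfl fun l _ => ?_
        have hr1 : ((r : ℂ) + 1) ≠ 0 := Nat.cast_add_one_ne_zero r
        field_simp [kap_ne_zero]
        ring
  let F : Fin 6 × Fin 6 ⊕ Fin 3 → Frame τ := fun a => match a with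
    | .inl p => { n := 5, Q := R p, Qi := Ri p, hom := fun r => (hR p r).1.hom,
                  homInf := fun r => (hR p r).2.1.hom, hol := fun r => (hR p r).1.hol,
                  holInf := fun r => (hR p r).2.1.hol, glue := fun r => (hR p r).2.2,
                  per := fun r => (hR p r).1.per, perTau := hRt p }
    | .inr l => { n := 0, Q := fun _ => phi J l, Qi := fun _ => phiI J l,
                  hom := fun _ => (regular_phi J l).1.hom, homInf := fun _ => (regular_phi J l).2.1.hom,
                  hol := fun _ => (regular_phi J l).1.hol, holInf := fun _ => (regular_phi J l).2.1.hol,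
                  glue := fun _ => (regular_phi J l).2.2, per := fun _ => (regular_phi J l).1.per,
                  perTau := fun r hr z t x => by
                    obtain rfl : r = 0 := Nat.le_zero.1 hr
                    simpa [pull] using pull_phi J l z t x }
  refine ⟨_, inferInstance, F, fun z i j r hr => ?_, fun z g hg => ?_⟩
  · obtain ⟨X, Y, hXY⟩ := lift_rem J r i j z
    refine ⟨X, Y, fun a k => match a with
      | .inl p => if p = (i, j) ∧ k = r + 1 then ((r : ℂ) + 1)⁻¹ else 0
      | .inr l => -β (i, j) l r z, fun t x => ?_⟩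
    refine (hXY t x).symm.trans ?_
    rw [Fintype.sum_sum_type]
    simp only [F, zero_add, sum_range_one]
    rw [Finset.sum_eq_single (i, j) (fun p _ hp => sum_eq_zero fun k _ => by simp [hp])
      (fun h => absurd (mem_univ _) h), Finset.sum_eq_single (r + 1)
      (fun k _ hk => by simp [hk]) (fun h => absurd (mem_range.2 (by omega)) h)]
    have hr1 : ((r : ℂ) + 1) ≠ 0 := Nat.cast_add_one_ne_zero r
    simp only [and_self, if_true, R, if_pos hr, Q, neg_mul, sum_neg_distrib]
    field_simp
    ring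
  · refine ⟨fun a _ => match a with
      | .inl _ => 0
      | .inr l => J.h l z ⬝ᵥ g, fun t x => ?_⟩
    rw [Fintype.sum_sum_type]
    simp only [F, zero_mul, sum_const_zero, zero_add, sum_range_one]
    conv_lhs => rw [J.span z g fun d hd => by rw [dotProduct_comm]; exact hg d hd]
    simp only [sum_dotProduct, smul_dotProduct, smul_eq_mul, Finset.mul_sum, phi]
    exact sum_congr rfl fun l _ => by ring

end Vale.Agent.P296.Ample.Jet
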